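import Vale.Agent.P297.H572.Z3.Defs

/-!
General `ℤ/3` Godeaux surfaces, block (c) of `[INV]`: the non-degeneracy hypotheses of the abstract
T-side (`D ≠ 0`, `4 p³ + 27 q² ≠ 0`, not of the trivial type) from two conditions on the values at
complex numbers `δ` of the invariants of the plane cubics.
-/

open Polynomial

namespace Vale.Agent.P297.H946

theorem map_c4 {R S : Type} [CommRing R] [CommRing S] (g : R →+* S) (f : Fin 10 → R) :
    g (Z3.c4 f) = Z3.c4 (fun i => g (f i)) := by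
  simp only [Z3.c4, map_add, map_sub, map_mul, map_pow, map_ofNat]

theorem map_c6 {R S : Type} [CommRing R] [CommRing S] (g : R →+* S) (f : Fin 10 → R) :
    g (Z3.c6 f) = Z3.c6 (fun i => g (f i)) := by
  simp only [Z3.c6, map_add, map_sub, map_mul, map_pow, map_neg, map_ofNat]

/-- `D ≠ 0` and `4 p³ + 27 q² ≠ 0` as soon as one cubic of the family is non-singular. -/
theorem ne_of_value {p q D : ℂ[X]} {lam : ℂ} {F : Fin 10 → ℂ[X]}
    (hc4 : Z3.c4 F = C (-48) * C lam ^ 4 * D ^ 2 * p)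
    (hc6 : Z3.c6 F = C (-864) * C lam ^ 6 * D ^ 3 * q)
    (h : ∃ d : ℂ, Z3.c4 (fun i => (F i).eval d) ^ 3 ≠ Z3.c6 (fun i => (F i).eval d) ^ 2) :
    D ≠ 0 ∧ 4 * p ^ 3 + 27 * q ^ 2 ≠ 0 := by
  obtain ⟨d, hd⟩ := h
  have e4 : Z3.c4 (fun i => (F i).eval d) = -48 * lam ^ 4 * D.eval d ^ 2 * p.eval d := by
    have := congrArg (evalRingHom d) hc4
    rw [map_c4] at this
    simpa using this
  have e6 : Z3.c6 (fun i => (F i).eval d) = -864 * lam ^ 6 * D.eval d ^ 3 * q.eval d := by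
    have := congrArg (evalRingHom d) hc6
    rw [map_c6] at this
    simpa using this
  refine ⟨fun h0 => hd ?_, fun h0 => hd ?_⟩
  · rw [e4, e6, h0]
    simp
  · have h1 : 4 * p.eval d ^ 3 + 27 * q.eval d ^ 2 = 0 := by
      have := congrArg (eval d) h0
      simpa using this
    rw [e4, e6]
    linear_combination (-27648 * lam ^ 12 * D.eval d ^ 6) * h1

/-- The family is not of the trivial type, in terms of the values of `c4` and `c6`. -/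
theorem nt_of_values {p q D : ℂ[X]} {lam : ℂ} {F : Fin 10 → ℂ[X]}
    (hc4 : Z3.c4 F = C (-48) * C lam ^ 4 * D ^ 2 * p)
    (hc6 : Z3.c6 F = C (-864) * C lam ^ 6 * D ^ 3 * q)
    (h : ¬ ∃ α β a b : ℂ, ∀ d : ℂ,
      Z3.c4 (fun i => (F i).eval d) = α * D.eval d ^ 2 * (a * d + b) ^ 4 ∧
        Z3.c6 (fun i => (F i).eval d) = β * D.eval d ^ 3 * (a * d + b) ^ 6) :
    ∀ α β a b : ℂ, ¬ (p = C α * (C a * X + C b) ^ 4 ∧ q = C β * (C a * X + C b) ^ 6) := by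
  rintro α β a b ⟨hp, hq⟩
  refine h ⟨-48 * lam ^ 4 * α, -864 * lam ^ 6 * β, a, b, fun d => ⟨?_, ?_⟩⟩
  · have := congrArg (evalRingHom d) hc4
    rw [map_c4] at this
    simp only [coe_evalRingHom] at this
    rw [this, hp]
    simp
    ring
  · have := congrArg (evalRingHom d) hc6
    rw [map_c6] at this
    simp only [coe_evalRingHom] at this
    rw [this, hq]
    simp
    ring

/-- The discriminant of `v³ - m₃ v - m₁`, with `m₃ = t₃ + ζ₃ δ + 3 δ²` and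
`m₁ = t₁ + (ζ₁ - t₃) δ - ζ₃ δ² - 2 δ³`, vanishes identically only in the obvious case: a common
double root of `v³ - t₃ v - t₁` and `3 v² - ζ₃ v - ζ₁`. -/
theorem disc_eq_zero {ζ₁ ζ₃ t₁ t₃ : ℂ}
    (h : ∀ d : ℂ, 4 * (t₃ + ζ₃ * d + 3 * d ^ 2) ^ 3
      - 27 * (t₁ + ζ₁ * d - (t₃ + ζ₃ * d) * d - 2 * d ^ 3) ^ 2 = 0) :
    ∃ c : ℂ, ζ₃ = 6 * c ∧ ζ₁ = -3 * c ^ 2 ∧ t₃ = 3 * c ^ 2 ∧ t₁ = -2 * c ^ 3 := by
  have h0 := h 0
  have h1 := h 1
  have h2 := h (-1)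
  have h3 := h 2
  have h4 := h (-2)
  -- coefficients of `δ⁴, δ³, δ², δ, 1`
  have k4 : ζ₃ ^ 2 + 12 * ζ₁ = 0 := by
    linear_combination (1 / 9 : ℂ) * (6 * h0 - 4 * h1 - 4 * h2 + h3 + h4) / 24
  have k3 : 108 * t₁ + 18 * t₃ * ζ₃ + 54 * ζ₁ * ζ₃ + 4 * ζ₃ ^ 3 = 0 := by
    linear_combination (-h4 + 2 * h2 - 2 * h1 + h3) / 12
  have k2 : 54 * t₁ * ζ₃ + 54 * t₃ * ζ₁ + 12 * t₃ * ζ₃ ^ 2 + 9 * t₃ ^ 2 - 27 * ζ₁ ^ 2 = 0 := by
    linear_combination (-h4 + 16 * h2 - 30 * h0 + 16 * h1 - h3) / 24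
  obtain ⟨c, rfl⟩ : ∃ c, ζ₃ = 6 * c := ⟨ζ₃ / 6, by ring⟩
  have e1 : ζ₁ = -3 * c ^ 2 := by linear_combination (1 / 12 : ℂ) * k4
  subst e1
  have e2 : t₁ = c ^ 3 - c * t₃ := by linear_combination (1 / 108 : ℂ) * k3
  subst e2
  have e3 : (t₃ - 3 * c ^ 2) ^ 2 = 0 := by linear_combination (1 / 9 : ℂ) * k2
  have e4 : t₃ = 3 * c ^ 2 := sub_eq_zero.mp (pow_eq_zero_iff two_ne_zero |>.mp e3)
  exact ⟨c, rfl, rfl, e4, by rw [e4]; ring⟩

end Vale.Agent.P297.H946
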